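import Vale.Agent.P277.Stmts16
import Vale.Agent.P277.H371.C.WrapF

/-!
# P277, T4: the final theorem from the version with sections
-/

open scoped Manifold ContDiff Topology
open Vale.Agent.P272.K Vale.Agent.P285.H281.FD Vale.Agent.P267.H175 Set Filter Metric

noncomputable section

namespace Vale.Agent.P277.H371.N

open Vale.Agent.P277 Vale.Agent.P277.T2 Vale.Agent.P277.T3 Vale.Agent.P277.H615
open Vale.Agent.P277.H371.C

/-- **Theorem T4** (final form) from the version with sections -/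
theorem stT4F_of (hT : StT4) : StT4F := by
  intro Y _ _ _ _ _ χ hχ k s M hM hnef m hm hm0 ρ hρ hsum H _ _ _ _ _ _ ι sg hbd hdisj W X Z r
    v p P G hres hne f f' A L c hc n hn hflip N hNl hNi hNs hNf
  obtain ⟨t, hcmp⟩ := hn
  choose pp qq hpp hqq hpq tt htt using fun j e => (hflip j).iso e
  -- the exponents
  let Q : ℕ → Fin (k + s) → ℕ := fun j => Nat.rec (fun _ => 1) (fun j Qj e => qq j e * Qj e) j
  have hQ0 : ∀ e, Q 0 e = 1 := fun e => rfl
  have hQs : ∀ j e, Q (j + 1) e = qq j e * Q j e := fun j e => rfl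
  have hQ1 : ∀ j e, 1 ≤ Q j e := by
    intro j
    induction j with
    | zero => intro e; rw [hQ0]
    | succ j ih => intro e; rw [hQs]; exact Nat.mul_pos (hqq j e) (ih e)
  have hlb : ∀ j e, IsLBx (X j) (L j e) := fun j e => (hflip j).lb e
  -- the sections
  let T : ℕ → Type := fun j => {σ : ∀ i : Fin s, (L j (Fin.natAdd k i)).ι → (X j).pt → ℂ //
    ∀ i, IsSecx (X j) univ ((L j (Fin.natAdd k i)).pow (Q j (Fin.natAdd k i))) (σ i)}
  have hvs : Function.Surjective fun y => p (v y) := hres.psurj.comp hres.surj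
  have hvG : ∀ S : Set Y, (fun y => p (v y)) '' S = (fun y => p (v y)) '' S := fun _ => rfl
  have h0 : ∃ σ : ∀ i : Fin s, (L 0 (Fin.natAdd k i)).ι → (X 0).pt → ℂ,
      (∀ i, IsSecx (X 0) univ (L 0 (Fin.natAdd k i)) (σ i)) ∧
      ∀ i a ch b y, y ∉ ⋃ l, G l → p (v y) ∈ (L 0 (Fin.natAdd k i)).U a → At ch y →
        y ∈ (M (Fin.natAdd k i)).U b →
        σ i a (p (v y)) * t (Fin.natAdd k i) a (ch, b) y = sg i b y ^ c 0 (Fin.natAdd k i) := by
    have h1 := fun i : Fin s => exists_sec_base (hflip 0).normal hres.emb' hvs hres.an hres.dim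
      (fun y y' hy hyy' => ?_) hcmp (hlb 0) (Fin.natAdd k i) (hm0 i) (hM _) (hbd i).sec
    · choose σ h2 h3 using h1
      exact ⟨σ, h2, h3⟩
    · have h2 := hres.inj y (v y') hy hyy'
      exact hres.emb.inj (mem_univ _) (mem_univ _) h2
  obtain ⟨σ₀, hσ₀, hσ₀'⟩ := h0
  let T₀ : T 0 := ⟨σ₀, fun i => by
    refine ⟨fun a x hx ha => (hσ₀ i).holo a x hx ha, fun a b x hx ha hb => ?_⟩
    have h1 := (hσ₀ i).change a b x hx ha hb
    show σ₀ i a x = (L 0 (Fin.natAdd k i)).g a b x ^ Q 0 (Fin.natAdd k i) * σ₀ i b x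
    rw [hQ0, pow_one]
    exact h1⟩
  have hnext : ∀ j (σ : T j), ∃ σ' : T (j + 1), ∀ i x x' a b, f j x ∉ A j → f' j x' = f j x →
      x ∈ (L j (Fin.natAdd k i)).U a → x' ∈ (L (j + 1) (Fin.natAdd k i)).U b →
      σ.1 i a x ^ pp j (Fin.natAdd k i) *
        tt j (Fin.natAdd k i) a b (f j x) ^ Q j (Fin.natAdd k i) = σ'.1 i b x' := by
    intro j σ
    have h1 := fun i : Fin s => exists_sec_flip (hflip j).normal' (hflip j).small
      (hflip j).small' (hlb j (Fin.natAdd k i)) (hlb (j + 1) (Fin.natAdd k i))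
      (htt j (Fin.natAdd k i)) (σ.2 i)
    choose σ' h2 h3 using h1
    exact ⟨⟨σ', h2⟩, h3⟩
  choose nx hnx using hnext
  let S : ∀ j, T j := fun j => Nat.rec (motive := T) T₀ (fun j σ => nx j σ) j
  have hS0 : S 0 = T₀ := rfl
  have hSs : ∀ j, S (j + 1) = nx j (S j) := fun j => rfl
  -- the bad sets
  set I : Set (Fin r) := {l | ∑ e, ρ e * n e l / c 0 e < 0} with hI
  set I' : Set (Fin s) := {i | 1 ≤ ρ (Fin.natAdd k i)} with hI'
  let N' : ∀ j, Set (X j).pt := fun j => Nat.rec (motive := fun j => Set (X j).pt)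
    ((fun y => p (v y)) '' bad ι G I I') (fun j Nj => f' j ⁻¹' (f j '' Nj)) j
  have hN'0 : N' 0 = (fun y => p (v y)) '' bad ι G I I' := rfl
  have hN's : ∀ j, N' (j + 1) = f' j ⁻¹' (f j '' N' j) := fun j => rfl
  have hN'N : ∀ j, N' j ⊆ N j := by
    intro j
    induction j with
    | zero =>
      rw [hN'0]
      rintro _ ⟨y, hy | hy, rfl⟩
      · obtain ⟨l, hl, hy⟩ := mem_iUnion₂.1 hy
        exact hNl l hl y hy
      · obtain ⟨i, hi, x, rfl⟩ := mem_iUnion₂.1 hy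
        exact hNi i hi x
    | succ j ih =>
      rw [hN's]
      rintro x' ⟨x, hx, hxx'⟩
      exact hNs j x (ih hx) x' hxx'.symm
  -- the new data
  refine hT Y χ k s M m ρ H ι sg W X Z r v p P G f f' A
    (fun j e => (L j e).pow (Q j e)) (fun j e => c j e * Q j e) (fun j => (S j).1) n t I I' N'
    ⟨hχ, hM, hnef, hm, hm0, hρ, hsum, fun i hi => not_le.1 hi, hbd, hdisj, hres, hne,
      fun j e => Nat.mul_pos (hc j e) (hQ1 j e), ⟨?_, ?_⟩, ?_, ?_, fun j => ⟨?_, ?_, ?_, ?_⟩,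
      hN'0, hN's, ?_⟩
  · exact hcmp.div
  · intro y e i i₁ j j₁ hy hi hi₁ hj hj₁
    have h1 := hcmp.change y e i i₁ j j₁ hy hi hi₁ hj hj₁
    show t e i₁ j₁ y = (L 0 e).g i i₁ (p (v y)) ^ Q 0 e * t e i j y *
      ((((Bd.can 4 Y).pow (m e)).mul (M e)).g j₁ j y) ^ (c 0 e * Q 0 e)
    rw [hQ0, pow_one, mul_one]
    exact h1
  · intro i a ch b y hy ha hch hb
    show σ₀ i a (p (v y)) * t (Fin.natAdd k i) a (ch, b) y =
      sg i b y ^ (c 0 (Fin.natAdd k i) * Q 0 (Fin.natAdd k i))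
    rw [hQ0, mul_one]
    exact hσ₀' i a ch b y hy ha hch hb
  · intro l hl
    have h1 : 0 ≤ ∑ e, ρ e * n e l / c 0 e := not_lt.1 hl
    have h2 : ∀ e, (((c 0 e * Q 0 e : ℕ)) : ℝ) = c 0 e := by
      intro e
      rw [hQ0, mul_one]
    simp only [h2]
    exact h1
  · exact IsFlipR.pow (hflip j) (hpp j) (hpq j) (htt j) (Q j)
  · exact (S j).2
  · exact (S (j + 1)).2
  · intro i
    refine ⟨pp j (Fin.natAdd k i), 1, hpp j _, le_rfl, ?_, _, isIso_pow' (htt j _),
      fun x x' a b hx hxx' ha hb => ?_⟩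
    · show c j (Fin.natAdd k i) * Q j (Fin.natAdd k i) * pp j (Fin.natAdd k i) =
        c (j + 1) (Fin.natAdd k i) * Q (j + 1) (Fin.natAdd k i) * 1
      rw [hQs, mul_one, ← mul_assoc, ← hpq j]
      ring
    · rw [pow_one]
      exact hnx j (S j) i x x' a b hx hxx' ha hb
  · intro j
    refine (hNf j).mono ?_
    rintro x ⟨hx, y, y', h1, h2, h3⟩
    exact ⟨hN'N (j + 1) hx, y, y', h1, h2, h3⟩

end Vale.Agent.P277.H371.N
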