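import Vale.Agent.P277.H615.R.ChainV

/-!
# P277, T4: the tower of flips over a resolution `Y` of `X 0`, for wedges outside the set `Nc`
-/

open scoped Manifold ContDiff Topology
open Vale.Agent.P272.K Vale.Agent.P285.H281.FD Vale.Agent.P267.H175 Set Filter Metric

noncomputable section

namespace Vale.Agent.P277.H371.N

open Vale.Agent.P277 Vale.Agent.P277.T2 Vale.Agent.P277.H335 Vale.Agent.P277.H615

variable {Y : Type} [TopologicalSpace Y] [ChartedSpace (Cm 4) Y]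

/-- Wedges of `X` lift to `Y`; the functions `T e` have orders `q e` along the wedge. If the centre
of the wedge is disjoint from `Nc`, then the centre of the lift is disjoint from `Bd` and
`0 ≤ ∑ e, ρ e * q e`. If the wedge is also centred in `S`, then moreover `0 < ∑ e, ρ e * q e`. -/
def ChainN {k : ℕ} (N : Fin k → Bd Y) (X : CSp) (L : Fin k → Bd X.pt) (O : Set Y) (v : Y → X.pt)
    (T : ∀ e, (L e).ι → (N e).ι → Y → ℂ) (ρ : Fin k → ℝ) (S Nc : Set X.pt) (Bd : Set Y) : Prop :=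
  ∀ (W : Set (Cm 4)) (w₀ : Cm 4) (γ' : Cm 4 → X.pt) (i : ∀ e, (L e).ι), IsOpen W → w₀ ∈ W →
    w₀ 0 = 0 → (∀ w ∈ W, HolAt X γ' w) → W ⊆ closure {w | w ∈ W ∧ γ' w ∈ v '' O} →
    (∀ w ∈ W, ∀ e, γ' w ∈ (L e).U (i e)) →
    ∃ w₁ ∈ W, w₁ 0 = 0 ∧ ∃ (W₁ : Set (Cm 4)) (γ₀ : Cm 4 → Y) (ch : Chart 4 Y)
      (c : ∀ e, (N e).ι) (q : Fin k → ℚ), IsOpen W₁ ∧ w₁ ∈ W₁ ∧ W₁ ⊆ W ∧
      (∀ w ∈ W₁, ContinuousAt γ₀ w ∧ At ch (γ₀ w) ∧ AnalyticAt ℂ (fun w => ch (γ₀ w)) w ∧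
        ∀ e, γ₀ w ∈ (N e).U (c e)) ∧
      (∀ w ∈ W₁, γ' w ∈ v '' O → γ₀ w ∈ O) ∧ (∀ w ∈ W₁, γ₀ w ∈ O → v (γ₀ w) = γ' w) ∧
      (∀ e, HasOrd {w | γ₀ w ∈ O} w₁ (fun w => T e (i e) (c e) (γ₀ w)) (q e)) ∧
      ((∀ w ∈ W, w 0 = 0 → γ' w ∉ Nc) → 0 ≤ ∑ e, ρ e * q e ∧ ∀ w ∈ W₁, w 0 = 0 → γ₀ w ∉ Bd) ∧
      ((∀ w ∈ W, w 0 = 0 → γ' w ∈ S ∧ γ' w ∉ Nc) →
        0 < ∑ e, ρ e * q e ∧ ∀ w ∈ W₁, w 0 = 0 → γ₀ w ∉ Bd)

/-- the data on a space `X` obtained from `X₀` by flips -/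
structure TwN {k : ℕ} {V : CSp} (vV : Y → V.pt) (D : Set Y) (N : Fin k → Bd Y) (X : CSp)
    (L : Fin k → Bd X.pt) (c : Fin k → ℕ) (O : Set Y) (v : Y → X.pt) (P Q : Fin k → ℕ)
    (T : ∀ e, (L e).ι → (N e).ι → Y → ℂ) (ρ : Fin k → ℝ) (S Nc : Set X.pt) (Bd : Set Y) :
    Prop where
  tw : ∀ e, Tw0 vV D (N e) X (L e) O v (P e) (Q e) (T e)
  lb : ∀ e, IsLBx X (L e)
  mult : ∀ e, c e * P e = Q e
  chain : ChainN N X L O v T (fun e => ρ e / Q e) S Nc Bd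

section

variable {k : ℕ} {V X Z X' : CSp} {vV : Y → V.pt} {D : Set Y} {N : Fin k → Bd Y}
  {L : Fin k → Bd X.pt} {L' : Fin k → Bd X'.pt} {c c' : Fin k → ℕ} {O : Set Y}
  {v : Y → X.pt} {P Q : Fin k → ℕ} {T : ∀ e, (L e).ι → (N e).ι → Y → ℂ} {ρ : Fin k → ℝ}
  {S Nc : Set X.pt} {Bd : Set Y} {f : X.pt → Z.pt} {f' : X'.pt → Z.pt} {p q : Fin k → ℕ}
  {s : ∀ e, (L e).ι → (L' e).ι → Z.pt → ℂ} {a : Fin k → ℤ}

/-- The step: from the tower on `X` to the tower on `X'`. -/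
theorem TwN.step (hk : 1 ≤ k) (hN : ∀ e c, IsOpen ((N e).U c)) (hvV : IsOpenEmb V univ vV)
    (h : TwN vV D N X L c O v P Q T ρ S Nc Bd) (hf : FlipD f f' L L' p q s a) {d : ℕ} (hd : 1 ≤ d)
    (hc : ∀ e, c e * p e = c' e * q e)
    (hda : ∀ e, (a e : ℝ) ≤ d * (ρ e / (c e * p e)) ∧ d * (ρ e / (c e * p e)) ≤ a e + 1)
    {b : ∀ e, X.pt → (L e).ι} (hb : ∀ e x, x ∈ (L e).U (b e x)) :
    TwN vV D N X' L' c' {y | y ∈ O ∧ f (v y) ∉ Amin f} (fun y => hf.small'.sec (f (v y)))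
      (fun e => q e * P e) (fun e => Q e * p e)
      (fun e => stT v f (P e) (p e) (T e) (s e) (b e)) ρ (f' ⁻¹' Amin f)
      (f' ⁻¹' (f '' Nc)) Bd where
  tw e := (h.tw e).step' (hN e) hvV (hf.hp e) (hf.hq e) hf.small hf.small'
    (IsLBx.pow (hf.lb e) _) (IsLBx.pow (hf.lb' e) _) (hf.iso e) (hb e)
  lb := hf.lb'
  mult e := by
    calc c' e * (q e * P e) = (c' e * q e) * P e := by ring
      _ = (c e * p e) * P e := by rw [← hc e]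
      _ = (c e * P e) * p e := by ring
      _ = Q e * p e := by rw [h.mult e]
  chain := by
    intro W w₀ γ' j hW hw₀ hw₀0 hγ' hdd hj
    set O' : Set Y := {y | y ∈ O ∧ f (v y) ∉ Amin f} with hO'
    set v' : Y → X'.pt := fun y => hf.small'.sec (f (v y)) with hv'
    have hf'v' : ∀ y, f' (v' y) = f (v y) := fun y => hf.small'.sec_eq _
    have hd' : W ⊆ closure {w | w ∈ W ∧ f' (γ' w) ∉ Amin f} := by
      refine hdd.trans (closure_mono ?_)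
      rintro w ⟨hw, y, hy, hyw⟩
      refine ⟨hw, ?_⟩
      rw [← hyw]
      exact (hf'v' y).symm ▸ hy.2
    obtain ⟨r, g, hr, hs, hg, ⟨w₁, hw₁, hw₁0, hgw₁⟩, hgood⟩ := hf.down hk hW hw₀ hw₀0 hγ' hd'
    obtain ⟨W₁, γ, hW₁, hw₁W₁, hW₁W, hγ, hord⟩ := hgood w₁ hw₁ hw₁0 hgw₁
    choose i hi using fun e => (hf.lb e).cover (γ w₁)
    obtain ⟨σ, hσ, hsum⟩ := hord i j hi (hj w₁ (hW₁W hw₁W₁))
    have hev : ∀ᶠ w in 𝓝 w₁, w ∈ W₁ ∧ (∀ e, γ w ∈ (L e).U (i e)) ∧ ∀ e, w 0 = 0 →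
        HasOrd {w | f (γ w) ∉ Amin f} w (fun w => s e (i e) (j e) (f (γ w))) (σ e) := by
      refine (hW₁.eventually_mem hw₁W₁).and (Filter.Eventually.and ?_ ?_)
      · rw [eventually_all]
        exact fun e => (hγ w₁ hw₁W₁).1.1.eventually_mem (((hf.lb e).isOpen (i e)).mem_nhds (hi e))
      · rw [eventually_all]
        exact fun e => (hσ e).eventually hw₁0
    obtain ⟨W₂, hW₂s, hW₂, hw₁W₂⟩ := _root_.mem_nhds_iff.1 hev
    have key : ∀ w ∈ W₁, ∀ y ∈ O', v' y = γ' w → γ w = v y := by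
      intro w hw y hy hyw
      have h1 : f (γ w) = f (v y) := by rw [(hγ w hw).2, ← hyw, hf'v']
      exact hf.small.inj _ _ hy.2 h1
    have hd₁ : W₂ ⊆ closure {w | w ∈ W₂ ∧ γ w ∈ v '' O} := by
      refine (subset_closure_of_open (D := {w | γ' w ∈ v' '' O'}) hW₂
        (fun w hw => hW₁W (hW₂s hw).1) hdd).trans (closure_mono ?_)
      rintro w ⟨hw, y, hy, hyw⟩
      exact ⟨hw, y, hy.1, (key w (hW₂s hw).1 y hy hyw).symm⟩
    obtain ⟨w₂, hw₂W, hw₂0, W₃, γ₀, ch, c₀, x, hW₃, hw₂, hW₃W, hγ₀, hO1, hO2, hT, hx0⟩ :=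
      h.chain W₂ w₁ γ i hW₂ hw₁W₂ hw₁0 (fun w hw => (hγ w (hW₂s hw).1).1) hd₁
        (fun w hw => (hW₂s hw).2.1)
    have hO2' : ∀ w ∈ W₃, γ₀ w ∈ O' → v' (γ₀ w) = γ' w := by
      intro w hw hy
      have h1 : v (γ₀ w) = γ w := hO2 w hw hy.1
      have h2 := (hW₂s (hW₃W hw)).1
      refine hf.small'.inj _ _ ?_ ?_
      · rw [← (hγ w h2).2, ← h1]; exact hy.2
      · rw [hf'v', h1, (hγ w h2).2]
    have hD' : ∀ᶠ w in 𝓝 w₂, w ∈ {w | γ₀ w ∈ O'} →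
        w ∈ {w | γ₀ w ∈ O} ∧ w ∈ {w | f (γ w) ∉ Amin f} := by
      filter_upwards [hW₃.mem_nhds hw₂] with w hw hwO
      refine ⟨hwO.1, ?_⟩
      show f (γ w) ∉ Amin f
      rw [← hO2 w hw hwO.1]; exact hwO.2
    have hsne : ∀ e, ∀ᶠ w in 𝓝 w₂, w ∈ {w | γ₀ w ∈ O'} → w 0 ≠ 0 →
        s e (i e) (j e) (f (γ w)) ≠ 0 := by
      intro e
      filter_upwards [hD', hW₃.mem_nhds hw₂] with w hw hwW hwO _
      have h2 := hW₂s (hW₃W hwW)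
      exact ((hf.iso e).holo (γ w) (γ' w) (i e) (j e) (hw hwO).2 (hγ w h2.1).2.symm (h2.2.1 e)
        (hj w (hW₁W h2.1) e)).2
    refine ⟨w₂, hW₁W (hW₂s hw₂W).1, hw₂0, W₃, γ₀, ch, c₀, fun e => x e * p e - σ e * P e, hW₃, hw₂,
      fun w hw => hW₁W (hW₂s (hW₃W hw)).1, hγ₀, ?_, hO2', ?_, ?_⟩
    · rintro w hw ⟨y, hy, hyw⟩
      have h1 : γ w = v y := key w (hW₂s (hW₃W hw)).1 y hy hyw
      have h2 : γ₀ w ∈ O := hO1 w hw ⟨y, hy.1, h1.symm⟩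
      have h3 : γ₀ w = y := (h.tw ⟨0, hk⟩).emb.inj h2 hy.1 (by rw [hO2 w hw h2, h1])
      rw [h3]; exact hy
    · intro e
      have h1 := ((hT e).pow (p e)).mono (hD'.mono fun w hw hwO => (hw hwO).1)
      have h2 := (((hW₂s hw₂W).2.2 e hw₂0).mono (hD'.mono fun w hw hwO => (hw hwO).2)).pow (P e)
      have h3 := h1.mul hw₂0 (h2.inv ((hsne e).mono fun w hw m1 m2 => pow_ne_zero _ (hw m1 m2)))
      rw [← sub_eq_add_neg] at h3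
      refine h3.congr ?_
      filter_upwards [hW₃.mem_nhds hw₂] with w hw hwO _
      have h4 : v (γ₀ w) = γ w := hO2 w hw hwO.1
      have h5 := hW₂s (hW₃W hw)
      have h6 := stT_eq' (h.tw e).iso (h.tw e).lb hf.small' (IsLBx.pow (hf.lb e) (p e))
        (IsLBx.pow (hf.lb' e) (q e)) (hf.iso e) (hb e) hwO.1 hwO.2 (a₁ := i e) (b := j e)
        (c := c₀ e) (by rw [h4]; exact h5.2.1 e)
        (by
          have h7 : hf.small'.sec (f (v (γ₀ w))) = γ' w := hO2' w hw hwO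
          rw [h7]; exact hj w (hW₁W h5.1) e) ((hγ₀ w hw).2.2.2 e)
      rw [h6]
      show T e (i e) (c₀ e) (γ₀ w) ^ p e / s e (i e) (j e) (f (v (γ₀ w))) ^ P e = _
      rw [h4, div_eq_mul_inv]
    · have h1 := sum_step (c := c) hd (fun e => (h.tw e).hP) (fun e => (h.tw e).hQ) hf.hp h.mult ρ
        x σ
      have h2 := hsum (fun e => d * (ρ e / (c e * p e))) hda
      have hd0 : (0 : ℝ) < d := by exact_mod_cast hd
      rw [h1]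
      have hlift : (∀ w ∈ W, w 0 = 0 → γ' w ∉ f' ⁻¹' (f '' Nc)) →
          ∀ w ∈ W₂, w 0 = 0 → γ w ∉ Nc := by
        intro hC w hw hw0 hwN
        refine hC w (hW₁W (hW₂s hw).1) hw0 ⟨γ w, hwN, ?_⟩
        exact (hγ w (hW₂s hw).1).2
      have hx0' := hx0.1
      refine ⟨fun hC => ?_, fun hC => ?_⟩
      · have h3 := div_nonpos_of_nonpos_of_nonneg h2.1 hd0.le
        have h4 := hx0' (hlift hC)
        exact ⟨by linarith [h4.1], h4.2⟩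
      · have h3 := div_neg_of_neg_of_pos (h2.2 fun w hw hw0 => (hC w hw hw0).1) hd0
        have h4 := hx0' (hlift fun w hw hw0 => (hC w hw hw0).2)
        exact ⟨by linarith [h4.1], h4.2⟩

end

end Vale.Agent.P277.H371.N
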