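import Vale.Agent.P277.H335.TowerB
import Vale.Agent.P277.H371.N.BaseN

/-!
# P277, T4: the towers of a sequence of flips, with sections
-/

open scoped Manifold ContDiff Topology
open Vale.Agent.P272.K Vale.Agent.P285.H281.FD Vale.Agent.P267.H175 Set Metric Filter

noncomputable section

namespace Vale.Agent.P277.H371.N

open Vale.Agent.P277 Vale.Agent.P277.T2 Vale.Agent.P277.H335 Vale.Agent.P277.H615
open Vale.Agent.P277.H335.RR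

variable {Y : Type} [TopologicalSpace Y] [T2Space Y] [CompactSpace Y] [ChartedSpace (Cm 4) Y]
  [IsManifold 𝓘(ℂ, Cm 4) ω Y]

/-- The towers on all `X (j + 1)`, for a family of line bundles `NB e` and sections `sg i` of
`NB (β i)`. -/
theorem exists_towerN (hL0 : StL0) {k s : ℕ} (hk : 1 ≤ k) {NB : Fin k → Bd Y}
    (hNo : ∀ e c, IsOpen ((NB e).U c)) (hNc : ∀ e y, ∃ c, y ∈ (NB e).U c) {β : Fin s → Fin k}
    {sg : ∀ i, (NB (β i)).ι → Y → ℂ} {ρ : Fin k → ℝ}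
    {W : CSp} {X Z : ℕ → CSp} (hX0 : IsNormal 4 (X 0)) {r : ℕ}
    {v : Y → W.pt} {p : W.pt → (X 0).pt} {P : Bd W.pt} {G : Fin r → Set Y}
    (hR : T2.IsRes v p P G) {f : ∀ j, (X j).pt → (Z j).pt}
    {f' : ∀ j, (X (j + 1)).pt → (Z j).pt} {A : ∀ j, Set (Z j).pt}
    {L : ∀ j, Fin k → Bd (X j).pt} {c : ℕ → Fin k → ℕ} (hc : ∀ j e, 1 ≤ c j e)
    {n : Fin k → Fin r → ℤ} {t : ∀ e, (L 0 e).ι → (NB e).ι → Y → ℂ}
    (ht : IsCmpV (fun y => p (v y)) (L 0) (fun e => (NB e).pow (c 0 e)) G n t)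
    {Bd : Set Y} (hn : ∀ l, 0 ≤ ∑ e, ρ e * n e l / c 0 e ∨ G l ⊆ Bd)
    (hsec : ∀ i, SecRel (L 0 (β i)) (NB (β i)) (⋃ l, G l)ᶜ (fun y => p (v y)) 1 (c 0 (β i))
      (t (β i)) (sg i))
    (hflip : ∀ j, IsFlipR (X j) (Z j) (X (j + 1)) (f j) (f' j) (A j) (L j) (L (j + 1)) (c j)
      (c (j + 1)) ρ) {Nc : ∀ j, Set (X j).pt} (hN0 : Nc 0 = (fun y => p (v y)) '' Bd)
    (hNs : ∀ j, Nc (j + 1) = f' j ⁻¹' (f j '' Nc j)) (j : ℕ) :
    ∃ (O : Set Y) (v' : Y → (X (j + 1)).pt) (P' Q' : Fin k → ℕ)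
      (T : ∀ e, (L (j + 1) e).ι → (NB e).ι → Y → ℂ),
      TwN v (⋃ l, G l) NB (X (j + 1)) (L (j + 1)) (c (j + 1)) O v' P' Q' T ρ
        (f' j ⁻¹' Amin (f j)) (Nc (j + 1)) Bd ∧ f' j ⁻¹' Amin (f j) ⊆ (v' '' O)ᶜ ∧
      ∀ i, SecRel (L (j + 1) (β i)) (NB (β i)) O v' (P' (β i)) (Q' (β i)) (T (β i)) (sg i) := by
  have hneX : Nonempty (X 0).pt := by
    have h1 := (hflip 0).ninj
    rw [Function.Injective] at h1
    push Not at h1
    obtain ⟨x, -⟩ := h1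
    exact ⟨x⟩
  have hneW : Nonempty W.pt := by
    obtain ⟨x⟩ := hneX
    obtain ⟨w, -⟩ := hR.psurj x
    exact ⟨w⟩
  have hst : ∀ j, (∃ (O : Set Y) (v' : Y → (X j).pt) (P' Q' : Fin k → ℕ)
      (T : ∀ e, (L j e).ι → (NB e).ι → Y → ℂ) (S : Set (X j).pt),
        TwN v (⋃ l, G l) NB (X j) (L j) (c j) O v' P' Q' T ρ S (Nc j) Bd ∧
        ∀ i, SecRel (L j (β i)) (NB (β i)) O v' (P' (β i)) (Q' (β i)) (T (β i)) (sg i)) →
      ∃ (O : Set Y) (v' : Y → (X (j + 1)).pt) (P' Q' : Fin k → ℕ)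
        (T : ∀ e, (L (j + 1) e).ι → (NB e).ι → Y → ℂ),
      TwN v (⋃ l, G l) NB (X (j + 1)) (L (j + 1)) (c (j + 1)) O v' P' Q' T ρ
        (f' j ⁻¹' Amin (f j)) (Nc (j + 1)) Bd ∧ f' j ⁻¹' Amin (f j) ⊆ (v' '' O)ᶜ ∧
      ∀ i, SecRel (L (j + 1) (β i)) (NB (β i)) O v' (P' (β i)) (Q' (β i)) (T (β i)) (sg i) := by
    rintro j ⟨O, v', P', Q', T, S, hTw, hS⟩
    obtain ⟨pp, qq, s, d, a, hd, hcpq, hf, hda⟩ := exists_flipD (hflip j) (hc j)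
    choose b hb using fun e => (hf.lb e).cover
    have hb' : ∀ e x, x ∈ (L j e).U (b e x) := hb
    have hst' := hTw.step hk hNo hR.emb hf hd hcpq hda hb'
    rw [← hNs j] at hst'
    refine ⟨_, _, _, _, _, hst', ?_, fun i =>
      SecRel.step hf.normal' hf.small hf.small' (hf.lb (β i)) (hf.lb' (β i)) (hf.iso (β i))
        (hb' (β i)) (hS i)⟩
    rintro x' hx' ⟨y, hy, rfl⟩
    have h1 : f' j (hf.small'.sec (f j (v' y))) ∈ Amin (f j) := hx'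
    rw [hf.small'.sec_eq] at h1
    exact hy.2 h1
  induction j with
  | zero =>
    have hb := TwN.base hL0 hX0 hR hneW hNo hNc (hflip 0).lb (hc 0) ht hn
    rw [← hN0] at hb
    exact hst 0 ⟨_, _, _, _, _, _, hb, hsec⟩
  | succ j ih =>
    obtain ⟨O, v', P', Q', T, h, -, h'⟩ := ih
    exact hst (j + 1) ⟨_, _, P', Q', T, _, h, h'⟩

end Vale.Agent.P277.H371.N
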