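import Vale.Agent.P277.Stmts16
import Vale.Agent.P277.H371.C.FinB

/-!
# P277, T4: the assembly of Theorem T4 from CONTR, REGN and P7N
-/

set_option maxSynthPendingDepth 3

open scoped Manifold ContDiff Topology
open Vale.Agent.P272.K Vale.Agent.P285.H281.FD Vale.Agent.P267.H175 Set Filter

noncomputable section

namespace Vale.Agent.P277.H371.N

open Vale.Agent.P277 Vale.Agent.P277.T3 H615 H371.C

section

variable {Y : Type} [TopologicalSpace Y] [ChartedSpace (Cm 4) Y]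
  {χ : Chart 4 Y → Cm 4 → Matrix (Fin 4) (Fin 4) ℂ} {k s : ℕ} {M : Fin (k + s) → Bd Y}
  {m : Fin (k + s) → ℕ} {ρ : Fin (k + s) → ℝ} {H : Fin s → Type} [∀ i, TopologicalSpace (H i)]
  [∀ i, ChartedSpace (Cm 3) (H i)] {ι : ∀ i, H i → Y}
  {sg : ∀ i : Fin s, (M (Fin.natAdd k i)).ι → Y → ℂ} {W : CSp} {X Z : ℕ → CSp} {r : ℕ}
  {v₀ : Y → W.pt} {p : W.pt → (X 0).pt} {P : Bd W.pt} {G : Fin r → Set Y}
  {f : ∀ j, (X j).pt → (Z j).pt} {f' : ∀ j, (X (j + 1)).pt → (Z j).pt}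
  {A : ∀ j, Set (Z j).pt} {L : ∀ j, Fin (k + s) → Bd (X j).pt} {c : ℕ → Fin (k + s) → ℕ}
  {σ : ∀ j, ∀ i : Fin s, (L j (Fin.natAdd k i)).ι → (X j).pt → ℂ}
  {n : Fin (k + s) → Fin r → ℤ} {t : ∀ e, (L 0 e).ι →
    ((((Bd.can 4 Y).pow (m e)).mul (M e)).pow (c 0 e)).ι → Y → ℂ}
  {I : Set (Fin r)} {I' : Set (Fin s)} {N : ∀ j, Set (X j).pt}

theorem _root_.Vale.Agent.P277.T3.IsPN.amin
    (h : IsPN χ M m ρ ι sg v₀ p P G f f' A L c σ n t I I' N) :
    IsPN χ M m ρ ι sg v₀ p P G f f' (fun j => Amin (f j)) L c σ n t I I' N :=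
  { h with flip := fun j => IsFlipB.amin (h.flip j) (h.c1 j) }

variable {O : ℕ → Set Y} {v : ∀ j, Y → (X j).pt}

theorem isStrN [∀ i, CompactSpace (H i)] (hl : ∀ y : Y, ∃ e : Chart 4 Y, At e y)
    (h : IsPN χ M m ρ ι sg v₀ p P G f f' A L c σ n t I I' N)
    (hs : IsSeq X Z f f' A O v) (hO : O 0 = (⋃ l, G l)ᶜ) (hv : v 0 = fun y => p (v₀ y))
    (i : Fin s) : IsStr X O v (ι i) (fun j => zer (L j (Fin.natAdd k i)) (σ j i)) := by
  have hlb : ∀ j, IsLBx (X j) (L j (Fin.natAdd k i)) := fun j => (h.flip j).flip.lb _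
  have hsec : ∀ j, IsSecx (X j) univ (L j (Fin.natAdd k i)) (σ j i) := fun j => (h.flip j).sec i
  refine ⟨fun j => zer_closed (hlb j) (hsec j), fun j x => zer_eqn (hlb j) (hsec j) x,
    fun j => ?_⟩
  induction j with
  | zero =>
    intro y hy
    rw [hO] at hy
    have hy' : y ∉ ⋃ l, G l := hy
    obtain ⟨a, ha⟩ := (hlb 0).cover (p (v₀ y))
    obtain ⟨ch, hch⟩ := hl y
    obtain ⟨b, hb⟩ := (h.lb (Fin.natAdd k i)).cover y
    have h1 := h.corr i a ch b y hy' ha hch hb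
    have h2 : t (Fin.natAdd k i) a (ch, b) y ≠ 0 := C.cmpV_ne h.cmp hy' ha ⟨hch, hb⟩
    rw [hv]
    show p (v₀ y) ∈ zer (L 0 (Fin.natAdd k i)) (σ 0 i) ↔ y ∈ range (ι i)
    rw [mem_zer (hsec 0) ha, ← (h.bd i).zero b y hb]
    have h3 : c 0 (Fin.natAdd k i) ≠ 0 := Nat.one_le_iff_ne_zero.1 (h.c1 0 _)
    constructor
    · intro h4
      rw [h4, zero_mul] at h1
      exact pow_eq_zero_iff h3 |>.1 h1.symm
    · intro h4
      rw [h4, zero_pow h3] at h1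
      exact (mul_eq_zero.1 h1).resolve_right h2
  | succ j ih =>
    intro y hy
    have hy' := hy
    rw [hs.step j] at hy'
    rw [← ih y hy'.1]
    obtain ⟨p', q', hp', hq', -, t', ht', hcor⟩ := (h.flip j).corr i
    obtain ⟨a, ha⟩ := (hlb j).cover (v j y)
    obtain ⟨b, hb⟩ := (hlb (j + 1)).cover (v (j + 1) y)
    have hA : f j (v j y) ∉ A j := hy'.2
    have h1 := hcor (v j y) (v (j + 1) y) a b hA (hs.comp j y hy) ha hb
    have h2 := (ht'.holo (v j y) (v (j + 1) y) a b hA (hs.comp j y hy) ha hb).2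
    rw [mem_zer (hsec j) ha, mem_zer (hsec (j + 1)) hb]
    constructor
    · intro h4
      rw [h4, zero_pow (by omega)] at h1
      exact (pow_eq_zero_iff (by omega)).1 ((mul_eq_zero.1 h1).resolve_right h2)
    · intro h4
      rw [h4, zero_pow (by omega), zero_mul] at h1
      exact (pow_eq_zero_iff (by omega)).1 h1.symm

end

/-- **Theorem T4**, from CONTR, REGN and P7N. -/
theorem stT4_of (hC : StContr) (hR : StRegN) (hP : StP7N) : StT4 := by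
  intro Y _ _ _ _ _ χ k s M m ρ H _ _ _ _ _ _ ι sg W X Z r v₀ p P G f f' A L c σ n t I I' N h'
  have h := h'.amin
  have hsm : ∀ j, IsSmall (X j) (Z j) (f j) (Amin (f j)) := fun j => (h.flip j).flip.small
  have hsm' : ∀ j, IsSmall (X (j + 1)) (Z j) (f' j) (Amin (f j)) := fun j =>
    (h.flip j).flip.small'
  have hseq := isSeq_sq hsm hsm' h.res.emb' (by
    refine (h.res.dim).mono ?_
    intro x hx
    obtain ⟨w, rfl⟩ := h.res.psurj x
    obtain ⟨y, rfl⟩ := h.res.surj w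
    refine ⟨y, ?_, rfl⟩
    by_contra hy
    exact hx ⟨y, hy, rfl⟩)
  set O : ℕ → Set Y := fun j => (sq f hsm' (⋃ l, G l)ᶜ (fun y => p (v₀ y)) j).1 with hOd
  set v : ∀ j, Y → (X j).pt :=
    fun j => (sq f hsm' (⋃ l, G l)ᶜ (fun y => p (v₀ y)) j).2 with hvd
  have hO0 : O 0 = (⋃ l, G l)ᶜ := rfl
  have hv0 : v 0 = fun y => p (v₀ y) := rfl
  have hreg := hR Y χ k s M m ρ H ι sg W X Z r v₀ p P G f f' _ L c σ n t I I' N h
  have hflip : ∀ j, ∃ (L₁ : Bd (X j).pt) (L₂ : Bd (X (j + 1)).pt),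
      IsFlip (X j) (Z j) (X (j + 1)) (f j) (f' j) (Amin (f j)) L₁ L₂ := by
    intro j
    obtain ⟨p, q, s, d, a, -, -, h1, -⟩ := exists_flipD (h.flip j).flip (h.c1 j)
    exact ⟨_, _, h1.flip none⟩
  choose L₁ L₂ hL using hflip
  have hl : ∀ y : Y, ∃ e : Chart 4 Y, At e y := fun y =>
    ⟨chartAt (Cm 4) y, chart_mem_atlas _ y, mem_chart_source _ y⟩
  -- the surfaces of `H μ` are eventually not contracted
  have key : ∀ μ : Fin s, μ ∉ I' → ∃ J, ∀ j ≥ J, ThinM 3 1 (ι μ ⁻¹' O j \ ι μ ⁻¹' O (j + 1)) := by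
    have hwf : WellFounded fun a b : Fin s => ρ (Fin.natAdd k b) < ρ (Fin.natAdd k a) := by
      have : IsTrans (Fin s) fun a b : Fin s => ρ (Fin.natAdd k b) < ρ (Fin.natAdd k a) :=
        ⟨fun a b c h1 h2 => h2.trans h1⟩
      have : IsIrrefl (Fin s) fun a b : Fin s => ρ (Fin.natAdd k b) < ρ (Fin.natAdd k a) :=
        ⟨fun a h1 => lt_irrefl _ h1⟩
      exact Finite.wellFounded_of_trans_of_irrefl _
    intro μ
    induction μ using hwf.induction with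
    | _ μ ih =>
      intro hμ
      obtain ⟨J, hJ⟩ := hP Y χ k s M m ρ H ι sg W X Z r v₀ p P G f f' _ L c σ n t I I' N h O v hseq hO0
        hv0 (ρ (Fin.natAdd k μ)) fun μ' hm' hμ' => ih μ' hμ' hm'
      refine hC Y W X Z r v₀ p P G h.res f f' (fun j => Amin (f j)) L₁ L₂ hL O v hseq hO0 hv0
        (H μ) (ι μ) (h.bd μ).sub ?_ (fun j => zer (L j (Fin.natAdd k μ)) (σ j μ))
        (isStrN hl h hseq hO0 hv0 μ) (fun j => ?_) ⟨J, fun j hj => ?_⟩
      · obtain ⟨_, ⟨x, rfl⟩, hx⟩ := not_subset.1 (h.ne μ)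
        exact ⟨x, hx⟩
      · exact (hreg j).mono fun x hx => ⟨hx.1, hx.2.2⟩
      · exact (hJ j hj).mono fun x hx => ⟨hx.1, Or.inr ⟨μ, le_rfl, hx.2⟩⟩
  obtain ⟨J, hJ⟩ := hP Y χ k s M m ρ H ι sg W X Z r v₀ p P G f f' _ L c σ n t I I' N h O v hseq hO0
    hv0 0 fun μ hμ _ => key μ hμ
  obtain ⟨j, hj, hj'⟩ := rinf_c X Z (fun y => p (v₀ y)) (⋃ l, G l)ᶜ (isRes_top h.res) f f'
    (fun j => Amin (f j)) L₁ L₂ hL hreg J
  exact hj' ((hJ j hj).mono fun x hx => ⟨hx, Or.inl le_rfl⟩)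

end Vale.Agent.P277.H371.N
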